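import Vale.Agent.P014Y.F.St
import Vale.Agent.P014Y.Pr.All

/-! # P014Y, block F: the rows `PRESN`, `BND` (helper24) -/

set_option linter.all false

namespace Vale.Agent.P014Y.F.Pn

open Vale.Agent.P014U

variable [Pp]

theorem presn : PRESN := fun _ _ _ _ π _ _ _ _ _ _ _ _ _ _ _ _ h ov un on coc lc rel =>
  Pr.presn π (.of h.toGd h.pm) ov un on coc lc (.inr rel)

theorem bnd : BND := fun _ _ _ _ _ _ h => Pr.bnd (.of h.toGd h.pm)

end Vale.Agent.P014Y.F.Pn
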